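import Vale.Agent.P370.Final

namespace Vale.Agent.Results.P370.B_core

open Vale.Agent.P370

theorem result : ∃ c : ℕ, 1 ≤ c ∧ ∀ Y N : Set (List Bool), InQMA Y N →
    ∃ f : List Bool → Inst, PolyTime codeInst f ∧ ∀ x, (f x).Valid ∧
      1 / ((codeInst (f x)).length : ℚ) ^ c ≤ (f x).b - (f x).a ∧
      (x ∈ Y → (f x).E0 ≤ (((f x).a : ℝ) : EReal)) ∧
      (x ∈ N → (((f x).b : ℝ) : EReal) ≤ (f x).E0) :=
  main

end Vale.Agent.Results.P370.B_core
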